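import Mathlib.MeasureTheory.Integral.Layercake
import Mathlib.MeasureTheory.Measure.Haar.InnerProductSpace
import Mathlib.MeasureTheory.Measure.Lebesgue.Basic
import Mathlib.MeasureTheory.Constructions.Pi

/-! The Prékopa–Leindler inequality (midpoint version) on `ℝ`, `Fin n → ℝ` and Euclidean space. -/

open MeasureTheory Set Filter
open scoped ENNReal NNReal

namespace Vale.Agent.PL

lemma vol_le_two_mul (c : ℝ) (K S : Set ℝ) (h : ∀ x ∈ K, (1 / 2 : ℝ) * (x + c) ∈ S) :
    volume K ≤ 2 * volume S := by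
  have h1 : K ⊆ (fun x => x + c) ⁻¹' (((1 / 2 : ℝ) * ·) ⁻¹' S) := h
  refine (measure_mono h1).trans (le_of_eq ?_)
  rw [measure_preimage_add_right, Real.volume_preimage_mul_left (by norm_num)]
  norm_num

lemma bm_compact {K L C : Set ℝ} (hK : IsCompact K) (hL : IsCompact L) (nK : K.Nonempty)
    (nL : L.Nonempty) (h : ∀ a ∈ K, ∀ b ∈ L, (1 / 2 : ℝ) * (a + b) ∈ C) :
    volume K + volume L ≤ 2 * volume C := by
  obtain ⟨a, haK, ha⟩ := hK.exists_isGreatest nK
  obtain ⟨b, hbL, hb⟩ := hL.exists_isLeast nL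
  set m := (1 / 2 : ℝ) * (a + b)
  have h1 : volume K ≤ 2 * volume (C ∩ Iic m) :=
    vol_le_two_mul b K _ fun x hx => ⟨h x hx b hbL, by
      have := ha hx
      simp only [mem_Iic, m]; linarith⟩
  have h2 : volume L ≤ 2 * volume (C ∩ Ici m) :=
    vol_le_two_mul a L _ fun x hx => ⟨by rw [add_comm]; exact h a haK x hx, by
      have := hb hx
      simp only [mem_Ici, m]; linarith⟩
  have h3 : volume (C ∩ Ici m) = volume (C \ Iic m) := by
    rw [sdiff_eq, compl_Iic]
    exact measure_congr (ae_eq_set_inter (ae_eq_refl _) Ioi_ae_eq_Ici.symm)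
  calc volume K + volume L ≤ 2 * volume (C ∩ Iic m) + 2 * volume (C \ Iic m) := by
        rw [← h3]; exact add_le_add h1 h2
    _ = 2 * volume C := by rw [← mul_add, measure_inter_add_sdiff _ measurableSet_Iic]

/-- one-dimensional Brunn–Minkowski inequality -/
lemma bm_one {A B C : Set ℝ} (hA : MeasurableSet A) (hB : MeasurableSet B) (nA : A.Nonempty)
    (nB : B.Nonempty) (h : ∀ a ∈ A, ∀ b ∈ B, (1 / 2 : ℝ) * (a + b) ∈ C) :
    volume A + volume B ≤ 2 * volume C := by
  obtain ⟨a, ha⟩ := nA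
  obtain ⟨b, hb⟩ := nB
  rw [hA.measure_eq_iSup_isCompact, hB.measure_eq_iSup_isCompact]
  simp only [iSup_and']
  refine ENNReal.biSup_add_biSup_le' ⟨∅, empty_subset _, isCompact_empty⟩
    ⟨∅, empty_subset _, isCompact_empty⟩ fun K hK L hL => ?_
  calc volume K + volume L ≤ volume (insert a K) + volume (insert b L) :=
        add_le_add (measure_mono (subset_insert _ _)) (measure_mono (subset_insert _ _))
    _ ≤ _ := bm_compact (hK.2.insert a) (hL.2.insert b) (insert_nonempty _ _)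
        (insert_nonempty _ _) fun x hx y hy =>
          h x (insert_subset ha hK.1 hx) y (insert_subset hb hL.1 hy)

lemma layer {α : Type*} [MeasurableSpace α] (μ : Measure α) {f : α → ℝ≥0∞} (hf : Measurable f)
    (hfin : ∀ x, f x ≠ ∞) :
    ∫⁻ x, f x ∂μ = ∫⁻ t in Ioi (0 : ℝ), μ {x | ENNReal.ofReal t < f x} := by
  have h := lintegral_eq_lintegral_meas_lt μ (f := fun x => (f x).toReal)
    (Eventually.of_forall fun x => ENNReal.toReal_nonneg) hf.ennreal_toReal.aemeasurable
  simp only [ENNReal.ofReal_toReal (hfin _)] at h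
  rw [h]
  refine setLIntegral_congr_fun measurableSet_Ioi fun t ht => ?_
  simp only [ENNReal.ofReal_lt_iff_lt_toReal (le_of_lt ht) (hfin _)]

lemma pl_normalized {f g h : ℝ → ℝ≥0∞} (hf : Measurable f) (hg : Measurable g)
    (hh : Measurable h) (sf : ⨆ x, f x = 1) (sg : ⨆ x, g x = 1)
    (H : ∀ x y, f x * g y ≤ h ((1 / 2 : ℝ) * (x + y)) ^ 2) :
    (∫⁻ x, f x) + (∫⁻ x, g x) ≤ 2 * ∫⁻ x, h x := by
  have f1 : ∀ x, f x ≤ 1 := fun x => sf ▸ le_iSup f x
  have g1 : ∀ x, g x ≤ 1 := fun x => sg ▸ le_iSup g x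
  have hm : Measurable fun x => min (h x) 1 := hh.min measurable_const
  refine le_trans ?_ (mul_le_mul_right (lintegral_mono fun x => min_le_left (h x) 1) 2)
  rw [layer _ hf fun x => ne_top_of_le_ne_top ENNReal.one_ne_top (f1 x),
    layer _ hg fun x => ne_top_of_le_ne_top ENNReal.one_ne_top (g1 x),
    layer _ hm fun x => ne_top_of_le_ne_top ENNReal.one_ne_top (min_le_right _ _),
    ← lintegral_add_left, ← lintegral_const_mul' _ _ (by norm_num)]
  · refine setLIntegral_mono' measurableSet_Ioi fun t ht => ?_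
    by_cases ht1 : ENNReal.ofReal t < 1
    · have n1 : ∃ x, ENNReal.ofReal t < f x := lt_iSup_iff.1 (sf ▸ ht1)
      have n2 : ∃ x, ENNReal.ofReal t < g x := lt_iSup_iff.1 (sg ▸ ht1)
      refine bm_one (measurableSet_lt measurable_const hf) (measurableSet_lt measurable_const hg)
        n1 n2 fun a ha b hb => ?_
      refine lt_min ?_ ht1
      have h1 : ENNReal.ofReal t ^ 2 < h ((1 / 2 : ℝ) * (a + b)) ^ 2 := by
        rw [sq]
        exact (ENNReal.mul_lt_mul ha hb).trans_le (H a b)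
      exact lt_of_pow_lt_pow_left' 2 h1
    · have e1 : {x | ENNReal.ofReal t < f x} = ∅ :=
        eq_empty_of_forall_notMem fun x hx => ht1 (lt_of_lt_of_le hx (f1 x))
      have e2 : {x | ENNReal.ofReal t < g x} = ∅ :=
        eq_empty_of_forall_notMem fun x hx => ht1 (lt_of_lt_of_le hx (g1 x))
      simp [e1, e2]
  · refine Antitone.measurable fun s t hst => measure_mono fun x hx => ?_
    exact lt_of_le_of_lt (ENNReal.ofReal_le_ofReal hst) hx

lemma mul_le_sq_of_add_le {x y z : ℝ≥0∞} (h : x + y ≤ 2 * z) : x * y ≤ z ^ 2 := by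
  by_cases hz : z = ∞
  · simp [hz]
  have h2 : x + y ≠ ∞ := ne_top_of_le_ne_top (ENNReal.mul_ne_top (by norm_num) hz) h
  lift z to ℝ≥0 using hz
  lift x to ℝ≥0 using (ENNReal.add_ne_top.1 h2).1
  lift y to ℝ≥0 using (ENNReal.add_ne_top.1 h2).2
  have h3 : (x : ℝ) + y ≤ 2 * z := by exact_mod_cast h
  have h4 : (x : ℝ) * y ≤ z ^ 2 := by
    nlinarith [sq_nonneg ((x : ℝ) - y), x.coe_nonneg, y.coe_nonneg]
  exact_mod_cast h4

lemma pl_bounded {f g h : ℝ → ℝ≥0∞} (hf : Measurable f) (hg : Measurable g)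
    (hh : Measurable h) (sf : ⨆ x, f x ≠ ∞) (sg : ⨆ x, g x ≠ ∞)
    (H : ∀ x y, f x * g y ≤ h ((1 / 2 : ℝ) * (x + y)) ^ 2) :
    (∫⁻ x, f x) * (∫⁻ x, g x) ≤ (∫⁻ x, h x) ^ 2 := by
  set a := ⨆ x, f x with ha
  set b := ⨆ x, g x with hb
  by_cases a0 : a = 0
  · have : ∀ x, f x = 0 := fun x => nonpos_iff_eq_zero.1 (a0 ▸ le_iSup f x)
    simp [this]
  by_cases b0 : b = 0
  · have : ∀ x, g x = 0 := fun x => nonpos_iff_eq_zero.1 (b0 ▸ le_iSup g x)
    simp [this]
  set c := (a * b) ^ (1 / 2 : ℝ) with hc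
  have hc2 : c ^ 2 = a * b := by
    rw [hc, ← ENNReal.rpow_natCast, ← ENNReal.rpow_mul]; norm_num
  have c0 : c ≠ 0 := by
    intro h0; rw [h0] at hc2; simp [a0, b0] at hc2
  have ct : c ≠ ∞ := ENNReal.rpow_ne_top_of_nonneg (by norm_num) (ENNReal.mul_ne_top sf sg)
  have key := pl_normalized (f := fun x => a⁻¹ * f x) (g := fun x => b⁻¹ * g x)
    (h := fun x => c⁻¹ * h x) (hf.const_mul _) (hg.const_mul _) (hh.const_mul _)
    (by rw [← ENNReal.mul_iSup, ← ha, ENNReal.inv_mul_cancel a0 sf])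
    (by rw [← ENNReal.mul_iSup, ← hb, ENNReal.inv_mul_cancel b0 sg])
    (fun x y => by
      rw [mul_pow, ← ENNReal.inv_pow, hc2, ENNReal.mul_inv (Or.inl a0) (Or.inl sf),
        mul_mul_mul_comm]
      exact mul_le_mul_right (H x y) _)
  have key2 := mul_le_sq_of_add_le key
  rw [lintegral_const_mul _ hf, lintegral_const_mul _ hg, lintegral_const_mul _ hh, mul_pow,
    ← ENNReal.inv_pow, hc2, ENNReal.mul_inv (Or.inl a0) (Or.inl sf), mul_mul_mul_comm] at key2
  exact (ENNReal.mul_le_mul_iff_right (mul_ne_zero (ENNReal.inv_ne_zero.2 sf)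
    (ENNReal.inv_ne_zero.2 sg)) (ENNReal.mul_ne_top (ENNReal.inv_ne_top.2 a0)
    (ENNReal.inv_ne_top.2 b0))).1 key2

lemma lintegral_eq_iSup_min {α : Type*} [MeasurableSpace α] (μ : Measure α) {f : α → ℝ≥0∞}
    (hf : Measurable f) : ∫⁻ x, f x ∂μ = ⨆ k : ℕ, ∫⁻ x, min (f x) k ∂μ := by
  rw [← lintegral_iSup (fun k => hf.min measurable_const)
    (fun i j hij x => min_le_min_left _ (by exact_mod_cast hij))]
  refine lintegral_congr fun x => ?_
  rw [← inf_iSup_eq, ENNReal.iSup_natCast, inf_top_eq]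

/-- The midpoint Prékopa–Leindler property of a measure on a real vector space. -/
def PLProp {α : Type*} [AddCommGroup α] [Module ℝ α] [MeasurableSpace α] (μ : Measure α) : Prop :=
  ∀ f g h : α → ℝ≥0∞, Measurable f → Measurable g → Measurable h →
    (∀ x y, f x * g y ≤ h ((1 / 2 : ℝ) • (x + y)) ^ 2) →
    (∫⁻ x, f x ∂μ) * (∫⁻ x, g x ∂μ) ≤ (∫⁻ x, h x ∂μ) ^ 2

theorem pl_real : PLProp (volume : Measure ℝ) := by
  intro f g h hf hg hh H
  rw [lintegral_eq_iSup_min _ hf, lintegral_eq_iSup_min _ hg, ENNReal.iSup_mul]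
  refine iSup_le fun k => ?_
  rw [ENNReal.mul_iSup]
  refine iSup_le fun l => ?_
  refine pl_bounded (hf.min measurable_const) (hg.min measurable_const) hh
    (ne_top_of_le_ne_top (ENNReal.natCast_ne_top k) (iSup_le fun x => min_le_right _ _))
    (ne_top_of_le_ne_top (ENNReal.natCast_ne_top l) (iSup_le fun x => min_le_right _ _))
    fun x y => le_trans ?_ (H x y)
  exact mul_le_mul' (min_le_left _ _) (min_le_left _ _)

theorem PLProp.prod {α β : Type*} [AddCommGroup α] [Module ℝ α] [MeasurableSpace α]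
    [AddCommGroup β] [Module ℝ β] [MeasurableSpace β] {μ : Measure α} {ν : Measure β}
    [SFinite ν] (hμ : PLProp μ) (hν : PLProp ν) : PLProp (μ.prod ν) := by
  intro f g h hf hg hh H
  rw [lintegral_prod _ hf.aemeasurable, lintegral_prod _ hg.aemeasurable,
    lintegral_prod _ hh.aemeasurable]
  refine hμ _ _ _ hf.lintegral_prod_right' hg.lintegral_prod_right' hh.lintegral_prod_right'
    fun x y => ?_
  exact hν _ _ _ (hf.comp measurable_prodMk_left) (hg.comp measurable_prodMk_left)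
    (hh.comp measurable_prodMk_left) fun u v => H (x, u) (y, v)

theorem PLProp.map {α β : Type*} [AddCommGroup α] [Module ℝ α] [MeasurableSpace α]
    [AddCommGroup β] [Module ℝ β] [MeasurableSpace β] {μ : Measure α} {ν : Measure β}
    (hμ : PLProp μ) {e : α → β} (he : MeasurePreserving e μ ν)
    (hmid : ∀ x y, e ((1 / 2 : ℝ) • (x + y)) = (1 / 2 : ℝ) • (e x + e y)) : PLProp ν := by
  intro f g h hf hg hh H
  rw [← he.lintegral_comp hf, ← he.lintegral_comp hg, ← he.lintegral_comp hh]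
  refine hμ _ _ _ (hf.comp he.measurable) (hg.comp he.measurable) (hh.comp he.measurable)
    fun x y => ?_
  rw [hmid]; exact H _ _

theorem pl_pi (n : ℕ) : PLProp (volume : Measure (Fin n → ℝ)) := by
  induction n with
  | zero =>
    intro f g h hf hg hh H
    rw [Measure.volume_pi_eq_dirac 0, lintegral_dirac' _ hf, lintegral_dirac' _ hg,
      lintegral_dirac' _ hh]
    simpa using H 0 0
  | succ n ih =>
    refine (pl_real.prod ih).map
      (volume_preserving_piFinSuccAbove (fun _ : Fin (n + 1) => ℝ) 0).symm fun x y => ?_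
    ext i
    refine Fin.cases ?_ (fun j => ?_) i <;> simp [MeasurableEquiv.piFinSuccAbove, mul_add]

/-- **Prékopa–Leindler inequality** (midpoint form) in Euclidean space. -/
theorem pl_euclidean (n : ℕ) : PLProp (volume : Measure (EuclideanSpace ℝ (Fin n))) :=
  (pl_pi n).map (PiLp.volume_preserving_toLp (Fin n)) fun _ _ => rfl

end Vale.Agent.PL
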